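import Vale.Agent.P184.H444.GitS

/-!
# Amenability from the Foelner condition (after helper697's file for P196)
-/

noncomputable section

open Filter Topology

namespace Vale.Agent.P184.H444.Fol

open Classical in
/-- the Foelner condition -/
def IsAmenable (G : Type*) [Group G] : Prop :=
  ∀ (K : Finset G) (ε : ℝ), 0 < ε → ∃ D : Finset G, D.Nonempty ∧
    ∀ g ∈ K, ((symmDiff (D.image (fun x => g * x)) D).card : ℝ) < ε * D.card

lemma card_symmDiff_image {G : Type*} [Group G] [DecidableEq G] (g : G) (D : Finset G) :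
    (symmDiff (D.image (fun x => g * x)) D).card = 2 * ((D.image (fun x => g * x)) \ D).card := by
  have hc : (D.image (fun x => g * x)).card = D.card :=
    Finset.card_image_of_injective _ (mul_right_injective g)
  have h2 : (D \ (D.image (fun x => g * x))).card = ((D.image (fun x => g * x)) \ D).card := by
    have e1 := Finset.card_sdiff_add_card_inter D (D.image (fun x => g * x))
    have e2 := Finset.card_sdiff_add_card_inter (D.image (fun x => g * x)) D
    rw [Finset.inter_comm] at e2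
    omega
  have h3 : symmDiff (D.image (fun x => g * x)) D =
      ((D.image (fun x => g * x)) \ D) ∪ (D \ (D.image (fun x => g * x))) := rfl
  rw [h3, Finset.card_union_of_disjoint, h2]
  · omega
  · exact Finset.disjoint_left.2 fun x hx hx2 =>
      (Finset.mem_sdiff.1 hx).2 (Finset.mem_sdiff.1 hx2).1

open Classical in
/-- The one-sided form of the Foelner condition. -/
theorem isAmenable_iff {G : Type*} [Group G] :
    IsAmenable G ↔ ∀ (K : Finset G) (ε : ℝ), 0 < ε → ∃ D : Finset G, D.Nonempty ∧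
      ∀ g ∈ K, (((D.image (fun x => g * x)) \ D).card : ℝ) < ε * D.card := by
  constructor
  · intro h K ε hε
    obtain ⟨D, hD, hF⟩ := h K (2 * ε) (by positivity)
    refine ⟨D, hD, fun g hg => ?_⟩
    have h1 := hF g hg
    rw [card_symmDiff_image] at h1
    push_cast at h1
    linarith
  · intro h K ε hε
    obtain ⟨D, hD, hF⟩ := h K (ε / 2) (by positivity)
    refine ⟨D, hD, fun g hg => ?_⟩
    have h1 := hF g hg
    rw [card_symmDiff_image]
    push_cast
    linarith

open Classical in
/-- Commutative groups are amenable. -/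
theorem isAmenable_of_commGroup (G : Type*) [CommGroup G] : IsAmenable G := by
  rw [isAmenable_iff]
  intro S ε hε
  -- the boxes
  let box : ℕ → Finset G := fun n =>
    (S.pi (fun _ => Finset.range n)).image (fun a => ∏ s ∈ S.attach, (s : G) ^ (a s.1 s.2))
  have hcard : ∀ n, (box n).card ≤ n ^ S.card := by
    intro n
    refine Finset.card_image_le.trans ?_
    rw [Finset.card_pi]
    simp
  have hmono : ∀ n, box n ⊆ box (n + 1) := by
    intro n
    apply Finset.image_subset_image
    intro a ha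
    rw [Finset.mem_pi] at ha ⊢
    intro s hs
    have := Finset.mem_range.1 (ha s hs)
    exact Finset.mem_range.2 (by omega)
  have hmul : ∀ n, ∀ g ∈ S, (box n).image (fun x => g * x) ⊆ box (n + 1) := by
    intro n g hg x hx
    obtain ⟨y, hy, rfl⟩ := Finset.mem_image.1 hx
    obtain ⟨a, ha, rfl⟩ := Finset.mem_image.1 hy
    rw [Finset.mem_pi] at ha
    refine Finset.mem_image.2 ⟨fun s hs => if s = g then a s hs + 1 else a s hs, ?_, ?_⟩
    · rw [Finset.mem_pi]
      intro s hs
      have := Finset.mem_range.1 (ha s hs)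
      rw [Finset.mem_range]
      split_ifs <;> omega
    · have h1 : ∀ s ∈ S.attach, (s : G) ^ (if (s : G) = g then a s.1 s.2 + 1 else a s.1 s.2)
          = (if s = ⟨g, hg⟩ then g else 1) * (s : G) ^ (a s.1 s.2) := by
        intro s _
        by_cases h : (s : G) = g
        · have h2 : s = ⟨g, hg⟩ := Subtype.ext h
          rw [if_pos h, if_pos h2, pow_succ, mul_comm]
          exact congrArg (fun t => t * _) h
        · have h2 : ¬ s = ⟨g, hg⟩ := fun h3 => h (by rw [h3])
          rw [if_neg h, if_neg h2, one_mul]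
      rw [Finset.prod_congr rfl h1, Finset.prod_mul_distrib, Finset.prod_ite_eq',
        if_pos (Finset.mem_attach _ _)]
  have hne : ∀ n, 1 ≤ n → (box n).Nonempty := by
    intro n hn
    refine Finset.Nonempty.image ?_ _
    refine ⟨fun _ _ => 0, ?_⟩
    rw [Finset.mem_pi]
    intro s _
    exact Finset.mem_range.2 (by omega)
  -- polynomial growth gives a scale with small boundary
  obtain ⟨n, hn, hsmall⟩ : ∃ n, 1 ≤ n ∧ ((box (n + 1)).card : ℝ) < (1 + ε) * (box n).card := by
    by_contra hcon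
    push Not at hcon
    have hgrow : ∀ n : ℕ, (1 + ε) ^ n ≤ ((box (n + 1)).card : ℝ) := by
      intro n
      induction n with
      | zero =>
        have := Finset.card_pos.2 (hne 1 le_rfl)
        simp only [pow_zero, zero_add]
        exact_mod_cast this
      | succ n ih =>
        have h1 := hcon (n + 1) (by omega)
        rw [pow_succ]
        calc (1 + ε) ^ n * (1 + ε) ≤ ((box (n + 1)).card : ℝ) * (1 + ε) :=
              mul_le_mul_of_nonneg_right ih (by positivity)
          _ = (1 + ε) * ((box (n + 1)).card : ℝ) := by ring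
          _ ≤ _ := h1
    have hlim := tendsto_pow_const_div_const_pow_of_one_lt S.card
      (show (1 : ℝ) < 1 + ε by linarith)
    have hev := (hlim.comp (Filter.tendsto_add_atTop_nat 1)).eventually
      (gt_mem_nhds (show (0 : ℝ) < 1 / (1 + ε) by positivity))
    obtain ⟨n, hn⟩ := hev.exists
    simp only [Function.comp] at hn
    have h1 := hgrow n
    have h2 : ((box (n + 1)).card : ℝ) ≤ ((n + 1 : ℕ) : ℝ) ^ S.card := by
      exact_mod_cast hcard (n + 1)
    have h3 : (0 : ℝ) < (1 + ε) ^ (n + 1) := by positivity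
    rw [div_lt_div_iff₀ h3 (by positivity)] at hn
    rw [pow_succ] at hn
    have h4 : ((n + 1 : ℕ) : ℝ) ^ S.card < (1 + ε) ^ n := by
      have h5 : (0 : ℝ) < 1 + ε := by positivity
      have h6 : ((n + 1 : ℕ) : ℝ) ^ S.card * (1 + ε) < (1 + ε) ^ n * (1 + ε) := by linarith
      exact lt_of_mul_lt_mul_right h6 h5.le
    linarith
  refine ⟨box n, hne n hn, fun g hg => ?_⟩
  have h1 : (box n).image (fun x => g * x) \ box n ⊆ box (n + 1) \ box n :=
    Finset.sdiff_subset_sdiff (hmul n g hg) le_rfl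
  have h2 : (box (n + 1) \ box n).card = (box (n + 1)).card - (box n).card :=
    Finset.card_sdiff_of_subset (hmono n)
  have h3 := Finset.card_le_card h1
  have h4 := Finset.card_le_card (hmono n)
  have h5 : (((box n).image (fun x => g * x) \ box n).card : ℝ)
      ≤ (box (n + 1)).card - (box n).card := by
    rw [← Nat.cast_sub h4]
    exact_mod_cast h3.trans h2.le
  linarith

/-- Groups with commuting elements are amenable. -/
theorem isAmenable_of_comm (G : Type*) [Group G] (hc : ∀ a b : G, a * b = b * a) :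
    IsAmenable G := by
  let _ : CommGroup G := { (inferInstance : Group G) with mul_comm := hc }
  exact isAmenable_of_commGroup G

open Classical in
/-- The size of the boundary of `D` in the direction `g`. -/
noncomputable def bd {G : Type*} [Group G] (g : G) (D : Finset G) : ℕ :=
  (D.filter (fun x => g * x ∉ D)).card

lemma bd_eq {G : Type*} [Group G] (g : G) (D : Finset G) [DecidablePred fun x => g * x ∉ D] :
    bd g D = (D.filter (fun x => g * x ∉ D)).card := by
  unfold bd
  congr

open Classical in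
lemma card_sdiff_eq_bd {G : Type*} [Group G] (g : G) (D : Finset G) :
    ((D.image (fun x => g * x)) \ D).card = bd g D := by
  rw [bd, ← Finset.card_image_of_injective (D.filter (fun y => g * y ∉ D))
    (mul_right_injective g)]
  congr 1
  ext z
  simp only [Finset.mem_image, Finset.mem_filter, Finset.mem_sdiff]
  constructor
  · rintro ⟨⟨y, hy, rfl⟩, hn⟩
    exact ⟨y, ⟨hy, hn⟩, rfl⟩
  · rintro ⟨y, ⟨hy, hn⟩, rfl⟩
    exact ⟨⟨y, hy, rfl⟩, hn⟩

/-- The boundary form of the Foelner condition. -/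
theorem isAmenable_iff_bd {G : Type*} [Group G] :
    IsAmenable G ↔ ∀ (K : Finset G) (ε : ℝ), 0 < ε → ∃ D : Finset G, D.Nonempty ∧
      ∀ g ∈ K, (bd g D : ℝ) < ε * D.card := by
  rw [isAmenable_iff]
  simp only [card_sdiff_eq_bd]

/-- Extensions of amenable groups by amenable groups are amenable. -/
theorem isAmenable_of_ext {E : Type*} [Group E] (K : Subgroup E) [K.Normal]
    (hK : IsAmenable K) (h : IsAmenable (E ⧸ K)) : IsAmenable E := by
  classical
  rw [isAmenable_iff_bd] at hK h ⊢
  intro S ε hε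
  obtain ⟨A, hA, hF⟩ := h (S.image (fun g : E => (g : E ⧸ K))) (ε / 2) (by positivity)
  let s : E ⧸ K → E := Quotient.out
  have hs : ∀ y : E ⧸ K, ((s y : E) : E ⧸ K) = y := fun y => Quotient.out_eq' y
  have hmem : ∀ (g : E) (y : E ⧸ K), (s ((g : E ⧸ K) * y))⁻¹ * (g * s y) ∈ K := by
    intro g y
    rw [← QuotientGroup.eq, hs, QuotientGroup.mk_mul, hs]
  obtain ⟨c, hc⟩ : ∃ c : E → E ⧸ K → K, ∀ (g : E) (y : E ⧸ K),
      g * s y = s ((g : E ⧸ K) * y) * (c g y : E) := by
    refine ⟨fun g y => ⟨_, hmem g y⟩, fun g y => ?_⟩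
    simp only
    group
  obtain ⟨Λ, hΛ, hFΛ⟩ := hK ((S ×ˢ A).image (fun p => c p.1 p.2)) (ε / 2) (by positivity)
  let D : Finset E := (A ×ˢ Λ).image (fun p : (E ⧸ K) × K => s p.1 * (p.2 : E))
  have hinj : Set.InjOn (fun p : (E ⧸ K) × K => s p.1 * (p.2 : E))
      (A ×ˢ Λ : Finset ((E ⧸ K) × K)) := by
    rintro ⟨y, l⟩ _ ⟨y', l'⟩ _ heq
    simp only at heq
    have hy : y = y' := by
      have h1 : ((s y * (l : E) : E) : E ⧸ K) = y := by
        rw [QuotientGroup.mk_mul, hs, (QuotientGroup.eq_one_iff (l : E)).2 l.2, mul_one]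
      have h2 : ((s y' * (l' : E) : E) : E ⧸ K) = y' := by
        rw [QuotientGroup.mk_mul, hs, (QuotientGroup.eq_one_iff (l' : E)).2 l'.2, mul_one]
      rw [← h1, ← h2, heq]
    subst hy
    have : l = l' := Subtype.ext (mul_left_cancel heq)
    rw [this]
  have hDcard : D.card = A.card * Λ.card := by
    rw [Finset.card_image_of_injOn hinj, Finset.card_product]
  refine ⟨D, (hA.product hΛ).image _, fun g hg => ?_⟩
  have hsub : D.filter (fun x => g * x ∉ D) ⊆
      (((A.filter (fun y => (g : E ⧸ K) * y ∉ A)) ×ˢ Λ).image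
        (fun p : (E ⧸ K) × K => s p.1 * (p.2 : E))) ∪
      A.biUnion (fun y => (Λ.filter (fun l : K => c g y * l ∉ Λ)).image
        (fun l : K => s y * (l : E))) := by
    intro x hx
    rw [Finset.mem_filter] at hx
    obtain ⟨hd, hnot⟩ := hx
    obtain ⟨⟨y, l⟩, hyl, rfl⟩ := Finset.mem_image.1 hd
    rw [Finset.mem_product] at hyl
    rw [Finset.mem_union]
    by_cases hgy : (g : E ⧸ K) * y ∈ A
    · right
      refine Finset.mem_biUnion.2 ⟨y, hyl.1, ?_⟩
      refine Finset.mem_image.2 ⟨l, Finset.mem_filter.2 ⟨hyl.2, ?_⟩, rfl⟩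
      intro hl
      apply hnot
      refine Finset.mem_image.2 ⟨((g : E ⧸ K) * y, c g y * l), ?_, ?_⟩
      · exact Finset.mem_product.2 ⟨hgy, hl⟩
      · change s ((g : E ⧸ K) * y) * ((c g y * l : K) : E) = g * (s y * (l : E))
        rw [← mul_assoc g, hc, Subgroup.coe_mul, mul_assoc]
    · left
      refine Finset.mem_image.2 ⟨(y, l), ?_, rfl⟩
      exact Finset.mem_product.2 ⟨Finset.mem_filter.2 ⟨hyl.1, hgy⟩, hyl.2⟩
  have h2 : bd g D ≤ bd (g : E ⧸ K) A * Λ.card + ∑ y ∈ A, bd (c g y) Λ := by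
    rw [bd_eq g D, bd_eq (g : E ⧸ K) A]
    refine (Finset.card_le_card hsub).trans ((Finset.card_union_le _ _).trans ?_)
    refine Nat.add_le_add ?_ ?_
    · refine Finset.card_image_le.trans ?_
      rw [Finset.card_product]
    · refine Finset.card_biUnion_le.trans (Finset.sum_le_sum fun y _ => ?_)
      rw [bd_eq]
      exact Finset.card_image_le
  have hΛpos : (0 : ℝ) < Λ.card := by exact_mod_cast Finset.card_pos.2 hΛ
  have h4 : (bd (g : E ⧸ K) A : ℝ) < ε / 2 * A.card := hF _ (Finset.mem_image_of_mem _ hg)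
  have h6 : ∑ y ∈ A, (bd (c g y) Λ : ℝ) ≤ A.card * (ε / 2 * Λ.card) := by
    rw [← nsmul_eq_mul, ← Finset.sum_const]
    refine Finset.sum_le_sum fun y hy => (hFΛ (c g y) ?_).le
    exact Finset.mem_image.2 ⟨(g, y), Finset.mem_product.2 ⟨hg, hy⟩, rfl⟩
  have h8 : (bd (g : E ⧸ K) A : ℝ) * Λ.card < ε / 2 * A.card * Λ.card :=
    mul_lt_mul_of_pos_right h4 hΛpos
  have h9 : (bd g D : ℝ) ≤ (bd (g : E ⧸ K) A : ℝ) * Λ.card + ∑ y ∈ A, (bd (c g y) Λ : ℝ) := by
    exact_mod_cast h2
  rw [hDcard]
  push_cast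
  linarith


section Mean

variable {G : Type*} [Group G]

/-- averages -/
def avg (D : Finset G) (f : G → ℝ) : ℝ := (∑ x ∈ D, f x) / D.card

omit [Group G] in
theorem avg_add (D : Finset G) (f g : G → ℝ) : avg D (f + g) = avg D f + avg D g := by
  unfold avg
  simp only [Pi.add_apply, Finset.sum_add_distrib, add_div]

omit [Group G] in
theorem avg_nonneg (D : Finset G) {f : G → ℝ} (hf : ∀ h, 0 ≤ f h) : 0 ≤ avg D f :=
  div_nonneg (Finset.sum_nonneg fun x _ => hf x) (Nat.cast_nonneg _)

omit [Group G] in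
theorem avg_const {D : Finset G} (hD : D.Nonempty) (c : ℝ) : avg D (fun _ => c) = c := by
  unfold avg
  rw [Finset.sum_const, nsmul_eq_mul]
  have : (D.card : ℝ) ≠ 0 := by
    have := Finset.card_pos.2 hD
    positivity
  field_simp

omit [Group G] in
theorem avg_abs {D : Finset G} (hD : D.Nonempty) {f : G → ℝ} {K : ℝ} (hf : ∀ h, |f h| ≤ K) :
    |avg D f| ≤ K := by
  have hc : (0 : ℝ) < D.card := by exact_mod_cast Finset.card_pos.2 hD
  unfold avg
  rw [abs_div, abs_of_pos hc, div_le_iff₀ hc]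
  refine (Finset.abs_sum_le_sum_abs _ _).trans ?_
  refine (Finset.sum_le_card_nsmul _ _ _ fun x _ => hf x).trans (le_of_eq ?_)
  rw [nsmul_eq_mul, mul_comm]

theorem avg_shift {D : Finset G} (hD : D.Nonempty) {f : G → ℝ} {K : ℝ} (hf : ∀ h, |f h| ≤ K)
    (k : G) {δ : ℝ} (hb : (bd k D : ℝ) < δ * D.card) :
    |avg D (fun h => f (k * h)) - avg D f| ≤ 2 * K * δ := by
  classical
  have hc : (0 : ℝ) < D.card := by exact_mod_cast Finset.card_pos.2 hD
  have hK : 0 ≤ K := (abs_nonneg _).trans (hf 1)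
  set D' := D.image (fun x => k * x) with hD'
  have h1 : ∑ x ∈ D, f (k * x) = ∑ x ∈ D', f x :=
    (Finset.sum_image fun x _ y _ h => mul_left_cancel h).symm
  have h2 : ∑ x ∈ D', f x - ∑ x ∈ D, f x = ∑ x ∈ D' \ D, f x - ∑ x ∈ D \ D', f x := by
    have e1 := Finset.sum_inter_add_sum_sdiff D' D f
    have e2 := Finset.sum_inter_add_sum_sdiff D D' f
    rw [Finset.inter_comm] at e2
    linarith
  have h3 : (D' \ D).card = bd k D := card_sdiff_eq_bd k D
  have h4 : (D \ D').card = bd k D := by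
    have hcard : D'.card = D.card := Finset.card_image_of_injective _ (mul_right_injective k)
    have e1 := Finset.card_sdiff_add_card_inter D D'
    have e2 := Finset.card_sdiff_add_card_inter D' D
    rw [Finset.inter_comm] at e2
    omega
  have h5 : ∀ E : Finset G, |∑ x ∈ E, f x| ≤ K * E.card := by
    intro E
    refine (Finset.abs_sum_le_sum_abs _ _).trans ?_
    refine (Finset.sum_le_card_nsmul _ _ _ fun x _ => hf x).trans (le_of_eq ?_)
    rw [nsmul_eq_mul, mul_comm]
  have h6 : avg D (fun h => f (k * h)) - avg D f =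
      (∑ x ∈ D' \ D, f x - ∑ x ∈ D \ D', f x) / D.card := by
    unfold avg
    rw [← sub_div, h1, h2]
  rw [h6, abs_div, abs_of_pos hc, div_le_iff₀ hc]
  have h7 := (abs_sub (∑ x ∈ D' \ D, f x) (∑ x ∈ D \ D', f x))
  have h8 := h5 (D' \ D)
  have h9 := h5 (D \ D')
  rw [h3] at h8
  rw [h4] at h9
  have h10 : K * (bd k D : ℝ) ≤ K * (δ * D.card) := mul_le_mul_of_nonneg_left hb.le hK
  linarith

/-- **The Foelner condition gives an invariant mean.** -/
theorem amen_of_folner (h : IsAmenable G) : Amen G := by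
  classical
  rw [isAmenable_iff_bd] at h
  have h1 : ∀ i : Finset G × ℕ, ∃ D : Finset G, D.Nonempty ∧
      ∀ g ∈ i.1, (bd g D : ℝ) < (1 / ((i.2 : ℝ) + 1)) * D.card := fun i => h _ _ (by positivity)
  choose D hD hDb using h1
  let U : Ultrafilter (Finset G × ℕ) := Ultrafilter.of atTop
  have hU : (U : Filter (Finset G × ℕ)) ≤ atTop := Ultrafilter.of_le _
  have hlim : ∀ f : G → ℝ, (∃ K, ∀ h, |f h| ≤ K) →
      ∃ l, Tendsto (fun i => avg (D i) f) U (𝓝 l) := by
    rintro f ⟨K, hK⟩
    have hc : IsCompact (Set.Icc (-K) K) := isCompact_Icc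
    have h2 : ((U.map fun i => avg (D i) f : Ultrafilter ℝ) : Filter ℝ) ≤ 𝓟 (Set.Icc (-K) K) := by
      rw [le_principal_iff, Ultrafilter.coe_map, mem_map]
      exact Filter.univ_mem' fun i => abs_le.1 (avg_abs (hD i) hK)
    obtain ⟨l, _, hl⟩ := hc.ultrafilter_le_nhds _ h2
    exact ⟨l, hl⟩
  let m : (G → ℝ) → ℝ := fun f => limUnder (U : Filter (Finset G × ℕ)) fun i => avg (D i) f
  have hm : ∀ f : G → ℝ, (∃ K, ∀ h, |f h| ≤ K) → Tendsto (fun i => avg (D i) f) U (𝓝 (m f)) :=
    fun f hf => tendsto_nhds_limUnder (hlim f hf)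
  refine ⟨m, fun f g hf hg => ?_, fun f hf h0 => ?_, fun c => ?_, fun f k hf => ?_⟩
  · have hfg : ∃ K, ∀ h, |(f + g) h| ≤ K := by
      obtain ⟨K, hK⟩ := hf
      obtain ⟨K', hK'⟩ := hg
      exact ⟨K + K', fun h => (abs_add_le _ _).trans (add_le_add (hK h) (hK' h))⟩
    refine tendsto_nhds_unique (hm _ hfg) ?_
    have h2 := (hm f hf).add (hm g hg)
    refine h2.congr fun i => (avg_add _ _ _).symm
  · exact ge_of_tendsto' (hm f hf) fun i => avg_nonneg _ h0
  · have h2 : ∃ K, ∀ _ : G, |c| ≤ K := ⟨|c|, fun _ => le_rfl⟩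
    refine tendsto_nhds_unique (hm _ h2) ?_
    exact tendsto_const_nhds.congr fun i => (avg_const (hD i) c).symm
  · obtain ⟨K, hK⟩ := hf
    have hf' : ∃ K, ∀ h, |f (k * h)| ≤ K := ⟨K, fun h => hK _⟩
    have h2 := (hm _ hf').sub (hm f ⟨K, hK⟩)
    have h3 : Tendsto (fun i : Finset G × ℕ => avg (D i) (fun h => f (k * h)) - avg (D i) f)
        U (𝓝 0) := by
      have h4 : Tendsto (fun i : Finset G × ℕ => 2 * K * (1 / ((i.2 : ℝ) + 1))) atTop (𝓝 0) := by
        have h5 : Tendsto (fun i : Finset G × ℕ => i.2) atTop atTop := by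
          rw [← prod_atTop_atTop_eq]
          exact tendsto_snd
        have h6 := (tendsto_one_div_add_atTop_nhds_zero_nat (𝕜 := ℝ)).comp h5
        have h7 := h6.const_mul (2 * K)
        rw [mul_zero] at h7
        exact h7
      refine squeeze_zero_norm' ?_ (h4.mono_left hU)
      refine hU (eventually_atTop.2 ⟨({k}, 0), fun i hi => ?_⟩)
      rw [Real.norm_eq_abs]
      exact avg_shift (hD i) hK k (hDb i k (hi.1 (Finset.mem_singleton_self k)))
    have h8 := tendsto_nhds_unique h2 h3
    exact sub_eq_zero.1 h8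

end Mean

end Vale.Agent.P184.H444.Fol
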